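import Vale.Agent.P057b.Core

/-! The choice of the parameters. -/

open MeasureTheory Filter Real

namespace Vale.Agent.P057b

theorem exM {N m : ℕ} {q s : ℝ} (hN : (1 : ℝ) ≤ N) (hm : (1 : ℝ) ≤ m) (hq0 : 0 < q) (hs0 : 0 < s)
    (hs2 : s ^ 2 = log N) (hm2 : s / q ≤ m) :
    ∃ M : ℕ, 2 ≤ M ∧ 8 * N ≤ M ^ (2 * m) ∧ (M : ℝ) ^ 2 ≤ 32 * exp (q * s) := by
  obtain ⟨x, hx⟩ : ∃ x, x = exp (log (8 * N) / (2 * m)) := ⟨_, rfl⟩
  have hx1 : 1 < x := hx ▸ one_lt_exp_iff.2 (div_pos (log_pos (by linarith)) (by positivity))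
  obtain ⟨M, hM⟩ : ∃ M, M = ⌈x⌉₊ := ⟨_, rfl⟩
  have hM1 : x ≤ M := hM ▸ Nat.le_ceil _
  have hM2 : (M : ℝ) ≤ 2 * x := by
    have : (M : ℝ) < x + 1 := hM ▸ Nat.ceil_lt_add_one (by positivity)
    linarith
  refine ⟨M, ?_, ?_, ?_⟩
  · have : (1 : ℝ) < M := by linarith
    exact_mod_cast this
  · have h3 : x ^ (2 * m) = 8 * N := by
      rw [hx, ← exp_nat_mul]
      push_cast
      rw [mul_div_cancel₀ _ (by positivity), exp_log (by positivity)]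
    have h4 := pow_le_pow_left₀ (by positivity) hM1 (2 * m)
    rw [h3] at h4
    exact_mod_cast h4
  · have h3 : x ^ 2 ≤ 8 * exp (q * s) := by
      have h8 : 0 < log 8 := log_pos (by norm_num)
      rw [hx, ← exp_nat_mul, log_mul (by norm_num) (by positivity), ← hs2]
      conv_rhs => rw [← exp_log (by norm_num : (0 : ℝ) < 8), ← exp_add]
      refine exp_le_exp.2 ?_
      push_cast
      rw [div_le_iff₀ hq0] at hm2
      rw [← mul_div_assoc, div_le_iff₀ (by positivity)]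
      nlinarith [mul_le_mul_of_nonneg_left hm2 hs0.le]
    nlinarith [pow_le_pow_left₀ (by positivity) hM2 2]

theorem bern {m : ℕ} (hm : (1 : ℝ) ≤ m) : 1 / 2 ≤ (1 - 1 / (2 * (m : ℝ))) ^ m := by
  have hhalf : 1 / (2 * (m : ℝ)) ≤ 1 / 2 := one_div_le_one_div_of_le (by norm_num) (by linarith)
  have := one_add_mul_le_pow (a := -(1 / (2 * (m : ℝ)))) (by linarith) m
  rw [← sub_eq_add_neg] at this
  refine le_trans (le_of_eq ?_) this
  field_simp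
  ring

theorem windows {m M C q s : ℝ} (hC : 0 ≤ C) (hq : 0 < q) (hs : 1 ≤ s) (hm : 1 ≤ m)
    (hm3 : m ≤ s / q + 1) (hM : M ^ 2 ≤ 32 * exp (q * s)) :
    64 * M ^ 2 * (m * (C * m ^ 2)) + 1 ≤
      exp (q * s) * ((2048 * C + 1) * ((1 / q + 1) ^ 3 * s ^ 3)) := by
  have c1 : m ≤ (1 / q + 1) * s := by
    rw [add_mul, one_div_mul_eq_div]; linarith
  have c2 : m ^ 3 ≤ (1 / q + 1) ^ 3 * s ^ 3 := by
    rw [← mul_pow]; exact pow_le_pow_left₀ (by positivity) c1 3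
  have c3 : 1 ≤ m ^ 3 := one_le_pow₀ hm
  have c4 : 1 ≤ exp (q * s) := one_le_exp (by positivity)
  calc _ = 64 * M ^ 2 * (C * m ^ 3) + 1 * 1 := by ring
    _ ≤ 64 * (32 * exp (q * s)) * (C * m ^ 3) + exp (q * s) * m ^ 3 := by gcongr
    _ = exp (q * s) * ((2048 * C + 1) * m ^ 3) := by ring
    _ ≤ _ := by gcongr

theorem cube_le {A δ s : ℝ} (hδ : 0 < δ) (hs : 0 < s) (h : 24 * A / δ ^ 4 ≤ s) :
    A * s ^ 3 ≤ exp (δ * s) := by
  have c1 := pow_div_factorial_le_exp (δ * s) (by positivity) 4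
  rw [div_le_iff₀ (by positivity)] at h
  refine le_trans ?_ c1
  rw [le_div_iff₀ (by positivity)]
  have : ((Nat.factorial 4 : ℕ) : ℝ) = 24 := by norm_num [Nat.factorial]
  rw [this]
  nlinarith [mul_le_mul_of_nonneg_right h (pow_pos hs 3).le]

theorem finish {N R ρ B q s c : ℝ} (hρ : 0 < ρ) (hR : 0 ≤ R)
    (h1 : N * (ρ * exp (-(q * s)) * (1 / 2)) ≤ R * (exp (q * s) * B))
    (h2 : 2 * B / ρ ≤ exp ((c - 2 * q) * s)) : N * exp (-c * s) ≤ R := by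
  have b6 : B ≤ ρ / 2 * exp ((c - 2 * q) * s) := by
    rw [div_le_iff₀ hρ] at h2
    linarith
  have b7 : N * (ρ * exp (-(q * s)) * (1 / 2)) ≤
      R * (exp (q * s) * (ρ / 2 * exp ((c - 2 * q) * s))) := h1.trans (by gcongr)
  have e : exp (-(q * s)) = exp (-c * s) * (exp (q * s) * exp ((c - 2 * q) * s)) := by
    rw [← exp_add, ← exp_add]; congr 1; ring
  rw [e] at b7
  have hp : 0 < ρ / 2 * (exp (q * s) * exp ((c - 2 * q) * s)) := by positivity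
  refine le_of_mul_le_mul_right ?_ hp
  linarith

theorem asym {l k : ℕ} {ρ C c : ℝ} (hρ0 : 0 < ρ) (hρ1 : ρ < 1) (hk : l + 2 ≤ k) (hC : 0 ≤ C)
    (hB : ∀ m : ℕ, 1 ≤ m → ∃ S f, Block l (C * m ^ 2) S f ∧
      ENNReal.ofReal (ρ * (1 - 1 / (2 * m))) ≤ volume S)
    (hc : 2 * √(log (1 / ρ)) < c) :
    ∀ᶠ N : ℕ in atTop, N * exp (-c * √(log N)) ≤ r k N := by
  have hL : 0 < log (1 / ρ) := log_pos (one_lt_one_div hρ0 hρ1)
  obtain ⟨q, hq⟩ : ∃ q, q = √(log (1 / ρ)) := ⟨_, rfl⟩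
  have hq0 : 0 < q := hq ▸ sqrt_pos.2 hL
  have hρ : ρ = exp (-q ^ 2) := by
    rw [hq, sq_sqrt hL.le, one_div, log_inv, neg_neg, exp_log hρ0]
  rw [← hq] at hc
  have ht : Tendsto (fun N : ℕ => √(log N)) atTop atTop :=
    tendsto_sqrt_atTop.comp (tendsto_log_atTop.comp tendsto_natCast_atTop_atTop)
  filter_upwards [ht.eventually_ge_atTop 1, ht.eventually_ge_atTop
    (24 * (2 * (2048 * C + 1) * (1 / q + 1) ^ 3 / ρ) / (c - 2 * q) ^ 4),
    eventually_ge_atTop 1] with N h1 h2 hN1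
  have hN : (1 : ℝ) ≤ N := by exact_mod_cast hN1
  have hs2 : √(log N) ^ 2 = log N := sq_sqrt (log_nonneg hN)
  generalize √(log N) = s at h1 h2 hs2
  have hs0 : 0 < s := by linarith
  obtain ⟨m, hm⟩ : ∃ m, m = ⌈s / q⌉₊ := ⟨_, rfl⟩
  have hm1 : 1 ≤ m := hm ▸ Nat.one_le_iff_ne_zero.2 (Nat.ceil_pos.2 (by positivity)).ne'
  have hm1' : (1 : ℝ) ≤ m := by exact_mod_cast hm1
  have hm2 : s / q ≤ m := hm ▸ Nat.le_ceil _
  have hm3 : (m : ℝ) ≤ s / q + 1 := hm ▸ (Nat.ceil_lt_add_one (by positivity)).le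
  obtain ⟨M, hM3, hM4, hM5⟩ := exM hN hm1' hq0 hs0 hs2 hm2
  obtain ⟨S, f, hb, hS⟩ := hB m hm1
  have hhalf : 1 / (2 * (m : ℝ)) ≤ 1 / 2 := one_div_le_one_div_of_le (by norm_num) (by linarith)
  have key := average_real hb (by positivity) (mul_nonneg hρ0.le (by linarith)) hS hk hM3 hM4
  have b2 : ρ * exp (-(q * s)) ≤ ρ ^ m := by
    rw [hρ, ← exp_nat_mul, ← exp_add]
    refine exp_le_exp.2 ?_
    have := mul_le_mul_of_nonneg_left hm3 (sq_nonneg q)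
    have e : q ^ 2 * (s / q + 1) = q * s + q ^ 2 := by field_simp
    linarith
  have b4 := cube_le (by linarith) hs0 h2
  refine finish (q := q) (B := (2048 * C + 1) * ((1 / q + 1) ^ 3 * s ^ 3)) hρ0 (Nat.cast_nonneg _)
    ?_ (le_trans (le_of_eq (by ring)) b4)
  refine le_trans ?_ (key.trans (mul_le_mul_of_nonneg_left (windows hC hq0 h1 hm1' hm3 hM5)
    (Nat.cast_nonneg _)))
  rw [mul_pow]
  exact mul_le_mul_of_nonneg_left (mul_le_mul b2 (bern hm1') (by norm_num) (by positivity))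
    (Nat.cast_nonneg _)

end Vale.Agent.P057b
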