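import Vale.Agent.P057b.Rep

/-! The building block for three-term progressions. -/

open MeasureTheory Set

namespace Vale.Agent.P057b

/-- A trapezoid. -/
def trap (p q c α β : ℝ) : Set (ℝ × ℝ) :=
  regionBetween (fun s => c - (α + β * s)) (fun s => c + (α + β * s)) (Ioo p q)

theorem mem_trap {p q c α β : ℝ} {z : ℝ × ℝ} (h : z ∈ trap p q c α β) :
    p < z.1 ∧ z.1 < q ∧ c - (α + β * z.1) < z.2 ∧ z.2 < c + (α + β * z.1) :=
  ⟨h.1.1, h.1.2, h.2.1, h.2.2⟩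

theorem meas_trap (p q c α β : ℝ) : MeasurableSet (trap p q c α β) :=
  measurableSet_regionBetween (by fun_prop) (by fun_prop) measurableSet_Ioo

theorem vol_trap {p q c α β v : ℝ} (hpq : p ≤ q) (h : ∀ s ∈ Ioo p q, 0 ≤ α + β * s)
    (hv : v = 2 * α * (q - p) + β * (q ^ 2 - p ^ 2)) :
    volume (trap p q c α β) = ENNReal.ofReal v := by
  have hi : ∀ g : ℝ → ℝ, Continuous g → IntegrableOn g (Ioo p q) := fun g hg =>
    (hg.integrableOn_Icc).mono_set Ioo_subset_Icc_self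
  rw [trap, Measure.volume_eq_prod, volume_regionBetween_eq_integral (hi _ (by fun_prop))
    (hi _ (by fun_prop)) measurableSet_Ioo (fun s hs => by linarith [h s hs]),
    ← integral_Ioc_eq_integral_Ioo, ← intervalIntegral.integral_of_le hpq, hv]
  congr 1
  have e : ((fun s => c + (α + β * s)) - fun s => c - (α + β * s)) =
      fun s => 2 * α + 2 * β * s := by
    funext s
    simp only [Pi.sub_apply]
    ring
  rw [e, intervalIntegral.integral_add (by simp) (Continuous.intervalIntegrable (by fun_prop) _ _),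
    intervalIntegral.integral_const_mul (2 * β) fun s => s, integral_id]
  simp
  ring

/-- The block. -/
def S3 (ε : ℝ) : Set (ℝ × ℝ) :=
  trap 0 (5 / 16) (1 / 2) (1 / 24) (2 / 3) ∪ trap (5 / 16) (1 / 2 - ε) (1 / 2) (1 / 4) 0 ∪
    trap (1 / 2) (5 / 8) (1 / 4) (1 / 8) 0 ∪ trap (1 / 2) (5 / 8) (3 / 4) (1 / 8) 0 ∪
    trap (5 / 8) (13 / 16) (1 / 4) (13 / 24) (-2 / 3) ∪
    trap (5 / 8) (13 / 16) (3 / 4) (13 / 24) (-2 / 3)

theorem meas_S3 (ε : ℝ) : MeasurableSet (S3 ε) :=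
  (((((meas_trap ..).union (meas_trap ..)).union (meas_trap ..)).union (meas_trap ..)).union
    (meas_trap ..)).union (meas_trap ..)

theorem vol_S3 {ε : ℝ} (h0 : 0 ≤ ε) (h1 : ε ≤ 1 / 8) :
    volume (S3 ε) = ENNReal.ofReal (113 / 384 - ε / 2) := by
  rw [S3, measure_union _ (meas_trap ..), measure_union _ (meas_trap ..),
    measure_union _ (meas_trap ..), measure_union _ (meas_trap ..), measure_union _ (meas_trap ..),
    vol_trap (v := 35 / 384) (by norm_num) (fun s hs => by linarith [hs.1]) (by norm_num),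
    vol_trap (v := 36 / 384 - ε / 2) (by linarith) (fun s hs => by linarith) (by ring),
    vol_trap (v := 12 / 384) (by norm_num) (fun s hs => by linarith) (by norm_num),
    vol_trap (v := 12 / 384) (by norm_num) (fun s hs => by linarith) (by norm_num),
    vol_trap (v := 9 / 384) (by norm_num) (fun s hs => by linarith [hs.2]) (by norm_num),
    vol_trap (v := 9 / 384) (by norm_num) (fun s hs => by linarith [hs.2]) (by norm_num),
    ← ENNReal.ofReal_add (by linarith) (by linarith),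
    ← ENNReal.ofReal_add (by linarith) (by linarith),
    ← ENNReal.ofReal_add (by linarith) (by linarith),
    ← ENNReal.ofReal_add (by linarith) (by linarith),
    ← ENNReal.ofReal_add (by linarith) (by linarith)]
  · congr 1
    ring
  all_goals
    try simp only [disjoint_union_left]
    repeat' apply And.intro
  all_goals
    rw [Set.disjoint_left]
    intro z h h'
    obtain ⟨a1, a2, a3, a4⟩ := mem_trap h
    obtain ⟨b1, b2, b3, b4⟩ := mem_trap h'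
    linarith

/-- The lower part of the block. -/
def Lo (ε s u : ℝ) : Prop := 0 < s ∧ s < 1 / 2 - ε ∧ -(1 / 4) < u ∧ u < 1 / 4 ∧
  -(1 / 24 + 2 / 3 * s) < u ∧ u < 1 / 24 + 2 / 3 * s

/-- The upper part of the block. -/
def Up (s u : ℝ) : Prop := 1 / 2 < s ∧ s < 13 / 16 ∧ -(1 / 8) < u ∧ u < 1 / 8 ∧
  -(13 / 24 - 2 / 3 * s) < u ∧ u < 13 / 24 - 2 / 3 * s

/-- A point of the block with its offset from the centre. -/
def Pt (ε s a u : ℝ) : Prop :=
  (Lo ε s u ∧ a = u + 1 / 2) ∨ (Up s u ∧ a = u + 1 / 4) ∨ (Up s u ∧ a = u + 3 / 4)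

/-- The offset from the centre. -/
noncomputable def off (z : ℝ × ℝ) : ℝ :=
  z.2 - if z.1 < 1 / 2 then 1 / 2 else if z.2 < 1 / 2 then 1 / 4 else 3 / 4

theorem mem_S3 {ε : ℝ} (h0 : 0 ≤ ε) (h1 : ε ≤ 1 / 8) {z : ℝ × ℝ} (h : z ∈ S3 ε) :
    Pt ε z.1 z.2 (off z) := by
  rcases h with ((((h | h) | h) | h) | h) | h <;> obtain ⟨a1, a2, a3, a4⟩ := mem_trap h
  iterate 2
    rw [off, if_pos (by linarith)]
    exact Or.inl ⟨⟨by linarith, by linarith, by linarith, by linarith, by linarith, by linarith⟩,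
      by ring⟩
  iterate 2
    · rw [off, if_neg (by linarith), if_pos (by linarith)]
      exact Or.inr (Or.inl ⟨⟨by linarith, by linarith, by linarith, by linarith, by linarith,
        by linarith⟩, by ring⟩)
    · rw [off, if_neg (by linarith), if_neg (by linarith)]
      exact Or.inr (Or.inr ⟨⟨by linarith, by linarith, by linarith, by linarith, by linarith,
        by linarith⟩, by ring⟩)

theorem int_cases3 {e : ℤ} (h1 : (-2 : ℝ) < e) (h2 : (e : ℝ) < 2) :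
    (e : ℝ) = -1 ∨ (e : ℝ) = 0 ∨ (e : ℝ) = 1 := by
  have h3 : -2 < e := by exact_mod_cast h1
  have h4 : e < 2 := by exact_mod_cast h2
  interval_cases e <;> simp

variable {ε s a u s' a' u' s'' a'' u'' : ℝ}

theorem Pt.bd (h : Pt ε s a u) (h0 : 0 ≤ ε) :
    0 < s ∧ s < 1 ∧ 0 < a ∧ a < 1 ∧ -(1 / 4) < u ∧ u < 1 / 4 := by
  rcases h with ⟨⟨a1, a2, a3, a4, a5, a6⟩, h⟩ | ⟨⟨a1, a2, a3, a4, a5, a6⟩, h⟩ |
    ⟨⟨a1, a2, a3, a4, a5, a6⟩, h⟩ <;>
  exact ⟨by linarith, by linarith, by linarith, by linarith, by linarith, by linarith⟩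

theorem Pt.side (h : Pt ε s a u) : s < 1 / 2 - ε ∨ 1 / 2 < s := by
  rcases h with ⟨h, -⟩ | ⟨h, -⟩ | ⟨h, -⟩
  exacts [Or.inl h.2.1, Or.inr h.1, Or.inr h.1]

theorem neg_wrap (h0 : 0 ≤ ε) (x : Pt ε s a u) (y : Pt ε s' a' u') (z : Pt ε s'' a'' u'')
    (hs : s - 2 * s' + s'' = -1)
    (ha : a - 2 * a' + a'' = -1 ∨ a - 2 * a' + a'' = 0 ∨ a - 2 * a' + a'' = 1) : False := by
  have x0 := (x.bd h0).1
  have z0 := (z.bd h0).1
  rcases y with ⟨⟨b1, b2, b3, b4, b5, b6⟩, hy⟩ | ⟨⟨b1, b2, b3, b4, b5, b6⟩, hy⟩ |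
    ⟨⟨b1, b2, b3, b4, b5, b6⟩, hy⟩
  · linarith
  all_goals
    rcases x with ⟨⟨a1, a2, a3, a4, a5, a6⟩, hx⟩ | ⟨⟨a1, a2, a3, a4, a5, a6⟩, hx⟩ |
      ⟨⟨a1, a2, a3, a4, a5, a6⟩, hx⟩ <;>
    rcases z with ⟨⟨c1, c2, c3, c4, c5, c6⟩, hz⟩ | ⟨⟨c1, c2, c3, c4, c5, c6⟩, hz⟩ |
      ⟨⟨c1, c2, c3, c4, c5, c6⟩, hz⟩ <;>
    rcases ha with ha | ha | ha <;>
    linarith

theorem low_lin (h0 : 0 ≤ ε) (x : Pt ε s a u) (y : Pt ε s' a' u') (z : Pt ε s'' a'' u'')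
    (hx : s < 1 / 2) (hy : s' < 1 / 2) (hz : s'' < 1 / 2)
    (ha : a - 2 * a' + a'' = -1 ∨ a - 2 * a' + a'' = 0 ∨ a - 2 * a' + a'' = 1) :
    u - 2 * u' + u'' = 0 ∧ ∃ l : ℤ, 4 * (a' - a) - l = 4 * (u' - u) := by
  have lo : ∀ {s a u : ℝ}, Pt ε s a u → s < 1 / 2 → a = u + 1 / 2 := fun h hs => by
    rcases h with h | h | h
    exacts [h.2, absurd h.1.1 (by linarith), absurd h.1.1 (by linarith)]
  have e1 := lo x hx
  have e2 := lo y hy
  have e3 := lo z hz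
  obtain ⟨-, -, -, -, a1, a2⟩ := x.bd h0
  obtain ⟨-, -, -, -, b1, b2⟩ := y.bd h0
  obtain ⟨-, -, -, -, c1, c2⟩ := z.bd h0
  refine ⟨?_, 0, by push_cast; linarith⟩
  rcases ha with ha | ha | ha <;> linarith

theorem up_lin (h0 : 0 ≤ ε) (x : Pt ε s a u) (y : Pt ε s' a' u') (z : Pt ε s'' a'' u'')
    (hx : 1 / 2 < s) (hy : 1 / 2 < s') (hz : 1 / 2 < s'')
    (ha : a - 2 * a' + a'' = -1 ∨ a - 2 * a' + a'' = 0 ∨ a - 2 * a' + a'' = 1) :
    u - 2 * u' + u'' = 0 ∧ ∃ l : ℤ, 4 * (a' - a) - l = 4 * (u' - u) := by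
  have up : ∀ {s a u : ℝ}, Pt ε s a u → 1 / 2 < s →
      -(1 / 8) < u ∧ u < 1 / 8 ∧ (a = u + 1 / 4 ∨ a = u + 3 / 4) := fun h hs => by
    rcases h with h | h | h
    exacts [absurd h.1.2.1 (by linarith), ⟨h.1.2.2.1, h.1.2.2.2.1, Or.inl h.2⟩,
      ⟨h.1.2.2.1, h.1.2.2.2.1, Or.inr h.2⟩]
  obtain ⟨a1, a2, e1⟩ := up x hx
  obtain ⟨b1, b2, e2⟩ := up y hy
  obtain ⟨c1, c2, e3⟩ := up z hz
  constructor
  · rcases e1 with e1 | e1 <;> rcases e2 with e2 | e2 <;> rcases e3 with e3 | e3 <;>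
      rcases ha with ha | ha | ha <;> linarith
  · rcases e1 with e1 | e1 <;> rcases e2 with e2 | e2
    exacts [⟨0, by push_cast; linarith⟩, ⟨2, by push_cast; linarith⟩,
      ⟨-2, by push_cast; linarith⟩, ⟨0, by push_cast; linarith⟩]

theorem key3 {K : ℝ} (h0 : 0 < ε) (hK : 2 ≤ K) (hKε : 2 ≤ K * ε ^ 2) (x : Pt ε s a u)
    (y : Pt ε s' a' u') (z : Pt ε s'' a'' u'') {e e' : ℤ} (hs : s - 2 * s' + s'' = e)
    (ha : a - 2 * a' + a'' = e') :
    1 / 16 ≤ K * s ^ 2 + 4 * u ^ 2 + (K * s'' ^ 2 + 4 * u'' ^ 2) - (K * s' ^ 2 + 4 * u' ^ 2) -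
      (K * s' ^ 2 + 4 * u' ^ 2) ∨ ∃ k l : ℤ, (4 * (s' - s) - k) ^ 2 + (4 * (a' - a) - l) ^ 2 ≤
      8 * (K * s ^ 2 + 4 * u ^ 2 + (K * s'' ^ 2 + 4 * u'' ^ 2) - (K * s' ^ 2 + 4 * u' ^ 2) -
        (K * s' ^ 2 + 4 * u' ^ 2)) := by
  obtain ⟨a1, a2, a3, a4, -, -⟩ := x.bd h0.le
  obtain ⟨b1, b2, b3, b4, b5, b6⟩ := y.bd h0.le
  obtain ⟨c1, c2, c3, c4, -, -⟩ := z.bd h0.le
  have he' := int_cases3 (e := e') (by linarith) (by linarith)
  rw [← ha] at he'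
  have hu : u' ^ 2 ≤ 1 / 16 := by nlinarith
  have big : 1 ≤ K * (s ^ 2 + s'' ^ 2 - 2 * s' ^ 2) →
      1 / 16 ≤ K * s ^ 2 + 4 * u ^ 2 + (K * s'' ^ 2 + 4 * u'' ^ 2) - (K * s' ^ 2 + 4 * u' ^ 2) -
        (K * s' ^ 2 + 4 * u' ^ 2) := fun h => by
    linarith [sq_nonneg u, sq_nonneg u'']
  rcases int_cases3 (e := e) (by linarith) (by linarith) with he | he | he <;> rw [he] at hs
  · exact (neg_wrap h0.le x y z hs he').elim
  · have e1 : s ^ 2 + s'' ^ 2 - 2 * s' ^ 2 = (s - s'') ^ 2 / 2 := by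
      obtain rfl : s'' = 2 * s' - s := by linarith
      ring
    have mixed : ε ^ 2 ≤ (s - s'') ^ 2 → 1 ≤ K * (s ^ 2 + s'' ^ 2 - 2 * s' ^ 2) := fun h => by
      rw [e1]
      nlinarith [mul_le_mul_of_nonneg_left h (by linarith : 0 ≤ K)]
    have same : (u - 2 * u' + u'' = 0 ∧ ∃ l : ℤ, 4 * (a' - a) - l = 4 * (u' - u)) →
        ∃ k l : ℤ, (4 * (s' - s) - k) ^ 2 + (4 * (a' - a) - l) ^ 2 ≤
        8 * (K * s ^ 2 + 4 * u ^ 2 + (K * s'' ^ 2 + 4 * u'' ^ 2) - (K * s' ^ 2 + 4 * u' ^ 2) -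
          (K * s' ^ 2 + 4 * u' ^ 2)) := fun ⟨h1, l, h2⟩ => by
      refine ⟨0, l, ?_⟩
      rw [h2]
      obtain rfl : s'' = 2 * s' - s := by linarith
      obtain rfl : u'' = 2 * u' - u := by linarith
      push_cast
      nlinarith [mul_le_mul_of_nonneg_right hK (sq_nonneg (s' - s)), sq_nonneg (s' - s),
        sq_nonneg (u' - u)]
    rcases x.side with h1 | h1 <;> rcases z.side with h2 | h2
    · exact Or.inr (same (low_lin h0.le x y z (by linarith) (by linarith) (by linarith) he'))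
    · exact Or.inl (big (mixed (by nlinarith)))
    · exact Or.inl (big (mixed (by nlinarith)))
    · exact Or.inr (same (up_lin h0.le x y z h1 (by linarith) h2 he'))
  · refine Or.inl (big ?_)
    have e1 : 1 / 2 ≤ s ^ 2 + s'' ^ 2 - 2 * s' ^ 2 := by
      obtain rfl : s'' = 2 * s' - s + 1 := by linarith
      nlinarith [sq_nonneg (2 * s - 2 * s' - 1)]
    nlinarith

theorem block3 {m : ℕ} (hm : 1 ≤ m) : ∃ S f, Block 1 (129 * m ^ 2) S f ∧
    ENNReal.ofReal (113 / 384 * (1 - 1 / (2 * m))) ≤ volume S := by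
  have hm' : (1 : ℝ) ≤ m := by exact_mod_cast hm
  have h0 : (0 : ℝ) < 1 / (8 * m) := by positivity
  have h1 : (1 : ℝ) / (8 * m) ≤ 1 / 8 := one_div_le_one_div_of_le (by norm_num) (by linarith)
  have hm2 : (1 : ℝ) ≤ m ^ 2 := one_le_pow₀ hm'
  obtain ⟨S, f, h2, h3⟩ := block_of_real (l := 1) (K := 129 * m ^ 2) (S := S3 (1 / (8 * m)))
    (g := fun z => 128 * m ^ 2 * z.1 ^ 2 + 4 * off z ^ 2) (meas_S3 _)
    (fun z hz => by
      obtain ⟨a1, a2, a3, a4, -, -⟩ := (mem_S3 h0.le h1 hz).bd h0.le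
      exact ⟨⟨a1, a2.le⟩, a3, a4.le⟩)
    (fun z _ => by positivity)
    (fun z hz => by
      obtain ⟨a1, a2, -, -, a3, a4⟩ := (mem_S3 h0.le h1 hz).bd h0.le
      have c1 : z.1 ^ 2 ≤ 1 := by nlinarith
      have c2 : off z ^ 2 ≤ 1 / 16 := by nlinarith
      nlinarith)
    fun p hp h4 h5 => by
      obtain ⟨e, he⟩ := h4 0
      obtain ⟨e', he'⟩ := h5 0
      exact key3 h0 (by linarith) (le_of_eq (by field_simp; norm_num))
        (mem_S3 h0.le h1 (hp 0 (by omega))) (mem_S3 h0.le h1 (hp 1 (by omega)))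
        (mem_S3 h0.le h1 (hp 2 (by omega))) he he'
  refine ⟨S, f, h2, ?_⟩
  rw [h3, vol_S3 h0.le h1]
  refine ENNReal.ofReal_le_ofReal ?_
  have e : (1 : ℝ) / (2 * m) = 4 * (1 / (8 * m)) := by field_simp; norm_num
  rw [e]
  linarith

end Vale.Agent.P057b
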