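import Vale.Agent.P057b.Rep

/-! The building block for four-term progressions. -/

open MeasureTheory Set

namespace Vale.Agent.P057b

/-- The one-dimensional block. -/
def U4 : Set ℝ := Ioo 0 (1 / 3) ∪ Ioo (5 / 9) (7 / 9)

/-- The one-dimensional potential. -/
noncomputable def g4 (a : ℝ) : ℝ := if a < 1 / 2 then (a - 1 / 6) ^ 2 else (a - 2 / 3) ^ 2 + 1

theorem vol_U4 : volume U4 = ENNReal.ofReal (5 / 9) := by
  rw [U4, measure_union (by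
    rw [Set.disjoint_left]
    intro x h h'
    linarith [h.2, h'.1]) measurableSet_Ioo, Real.volume_Ioo, Real.volume_Ioo,
    ← ENNReal.ofReal_add (by norm_num) (by norm_num)]
  norm_num

theorem mem_U4 {a : ℝ} (h : a ∈ U4) : (0 < a ∧ a < 1 / 3 ∧ g4 a = (a - 1 / 6) ^ 2) ∨
    (5 / 9 < a ∧ a < 7 / 9 ∧ g4 a = (a - 2 / 3) ^ 2 + 1) := by
  rcases h with h | h
  · exact Or.inl ⟨h.1, h.2, if_pos (by linarith [h.2])⟩
  · exact Or.inr ⟨h.1, h.2, if_neg (by linarith [h.1])⟩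

theorem int_cases {e : ℤ} (h1 : (-2 : ℝ) < e) (h2 : (e : ℝ) < 2) :
    (e : ℝ) = -1 ∨ (e : ℝ) = 0 ∨ (e : ℝ) = 1 := by
  have h3 : -2 < e := by exact_mod_cast h1
  have h4 : e < 2 := by exact_mod_cast h2
  interval_cases e <;> simp

theorem tri {a b c : ℝ} (ha : a ∈ U4) (hb : b ∈ U4) (hc : c ∈ U4) {e : ℤ}
    (h : a - 2 * b + c = e) :
    (a < 1 / 3 ∧ b < 1 / 3 ∧ c < 1 / 3 ∧ a - 2 * b + c = 0) ∨
    (a < 1 / 3 ∧ 5 / 9 < b ∧ c < 1 / 3 ∧ a - 2 * b + c = -1) ∨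
    (5 / 9 < a ∧ b < 1 / 3 ∧ 5 / 9 < c ∧ a - 2 * b + c = 1) ∨
    (5 / 9 < a ∧ 5 / 9 < b ∧ 5 / 9 < c ∧ a - 2 * b + c = 0) ∨
    (a < 1 / 3 ∧ b < 1 / 3 ∧ 5 / 9 < c ∧ (a - 2 * b + c = 0 ∨ a - 2 * b + c = 1)) ∨
    (5 / 9 < a ∧ b < 1 / 3 ∧ c < 1 / 3 ∧ (a - 2 * b + c = 0 ∨ a - 2 * b + c = 1)) := by
  rcases ha with ⟨a1, a2⟩ | ⟨a1, a2⟩ <;> rcases hb with ⟨b1, b2⟩ | ⟨b1, b2⟩ <;>
  rcases hc with ⟨c1, c2⟩ | ⟨c1, c2⟩ <;>
  rcases int_cases (e := e) (by linarith) (by linarith) with he | he | he <;>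
  rw [he] at h <;>
  first
    | (exfalso; linarith)
    | simp only [*, true_and, true_or, or_true]

theorem key4 {a b c d : ℝ} (ha : a ∈ U4) (hb : b ∈ U4) (hc : c ∈ U4) (hd : d ∈ U4) {e e' : ℤ}
    (h : a - 2 * b + c = e) (h' : b - 2 * c + d = e') :
    1 ≤ g4 a + g4 d - g4 b - g4 c ∨
      ∃ l : ℤ, (4 * (b - a) - l) ^ 2 = 4 * (g4 a + g4 d - g4 b - g4 c) := by
  have lo : ∀ x : ℝ, x < 1 / 3 → g4 x = (x - 1 / 6) ^ 2 := fun x hx => if_pos (by linarith)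
  have up : ∀ x : ℝ, 5 / 9 < x → g4 x = (x - 2 / 3) ^ 2 + 1 := fun x hx => if_neg (by linarith)
  have bd : ∀ x ∈ U4, 0 < x ∧ x < 7 / 9 := fun x hx => by
    rcases hx with ⟨a1, a2⟩ | ⟨a1, a2⟩ <;> exact ⟨by linarith, by linarith⟩
  obtain ⟨a0, a9⟩ := bd a ha
  obtain ⟨b0, b9⟩ := bd b hb
  obtain ⟨c0, c9⟩ := bd c hc
  obtain ⟨d0, d9⟩ := bd d hd
  rcases tri ha hb hc h with ⟨a1, b1, c1, p⟩ | ⟨a1, b1, c1, p⟩ | ⟨a1, b1, c1, p⟩ |
    ⟨a1, b1, c1, p⟩ | ⟨a1, b1, c1, p | p⟩ | ⟨a1, b1, c1, p | p⟩ <;>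
  rcases tri hb hc hd h' with ⟨b2, c2, d1, q⟩ | ⟨b2, c2, d1, q⟩ | ⟨b2, c2, d1, q⟩ |
    ⟨b2, c2, d1, q⟩ | ⟨b2, c2, d1, q | q⟩ | ⟨b2, c2, d1, q | q⟩ <;>
  first
    | (exfalso; linarith)
    | skip
  · refine Or.inr ⟨0, ?_⟩
    rw [lo a a1, lo b b1, lo c c1, lo d d1]
    obtain rfl : c = 2 * b - a := by linarith
    obtain rfl : d = 3 * b - 2 * a := by linarith
    push_cast
    ring
  · refine Or.inr ⟨2, ?_⟩
    rw [lo a a1, up b b1, lo c c1, up d d1]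
    obtain rfl : c = 2 * b - a - 1 := by linarith
    obtain rfl : d = 3 * b - 2 * a - 1 := by linarith
    push_cast
    ring
  · refine Or.inr ⟨-2, ?_⟩
    rw [up a a1, lo b b1, up c c1, lo d d1]
    obtain rfl : c = 2 * b - a + 1 := by linarith
    obtain rfl : d = 3 * b - 2 * a + 1 := by linarith
    push_cast
    ring
  · refine Or.inr ⟨0, ?_⟩
    rw [up a a1, up b b1, up c c1, up d d1]
    obtain rfl : c = 2 * b - a := by linarith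
    obtain rfl : d = 3 * b - 2 * a := by linarith
    push_cast
    ring
  all_goals
    left
    rw [up a a1, lo b b1, lo c c1, up d d1]
    nlinarith [sq_nonneg (a - 2 / 3), sq_nonneg (d - 2 / 3)]

theorem block4 : ∃ S f, Block 2 4 S f ∧ volume S = ENNReal.ofReal (25 / 81) := by
  have hm : MeasurableSet U4 := measurableSet_Ioo.union measurableSet_Ioo
  have hb : ∀ a ∈ U4, a ∈ Ioc (0 : ℝ) 1 ∧ 0 ≤ g4 a ∧ g4 a ≤ 2 := fun a ha => by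
    rcases mem_U4 ha with ⟨a1, a2, a3⟩ | ⟨a1, a2, a3⟩ <;> rw [a3] <;>
      exact ⟨⟨by linarith, by linarith⟩, by positivity, by nlinarith⟩
  obtain ⟨S, f, h1, h2⟩ := block_of_real (l := 2) (K := 4) (S := U4 ×ˢ U4)
    (g := fun z => g4 z.1 + g4 z.2) (hm.prod hm) (fun z hz => ⟨(hb _ hz.1).1, (hb _ hz.2).1⟩)
    (fun z hz => add_nonneg (hb _ hz.1).2.1 (hb _ hz.2).2.1)
    (fun z hz => by linarith [(hb _ hz.1).2.2, (hb _ hz.2).2.2]) fun p hp h1 h2 => by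
      obtain ⟨e0, he0⟩ := h1 0
      obtain ⟨e1, he1⟩ := h1 1
      obtain ⟨e2, he2⟩ := h2 0
      obtain ⟨e3, he3⟩ := h2 1
      have k1 := key4 (hp 0 (by omega)).1 (hp 1 (by omega)).1 (hp 2 (by omega)).1
        (hp 3 (by omega)).1 he0 he1
      have k2 := key4 (hp 0 (by omega)).2 (hp 1 (by omega)).2 (hp 2 (by omega)).2
        (hp 3 (by omega)).2 he2 he3
      norm_num only
      rcases k1 with k1 | ⟨a, k1⟩ <;> rcases k2 with k2 | ⟨b, k2⟩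
      · left; linarith
      · left; linarith [sq_nonneg (4 * ((p 1).2 - (p 0).2) - b)]
      · left; linarith [sq_nonneg (4 * ((p 1).1 - (p 0).1) - a)]
      · refine Or.inr ⟨a, b, ?_⟩
        linarith [sq_nonneg (4 * ((p 1).1 - (p 0).1) - a), sq_nonneg (4 * ((p 1).2 - (p 0).2) - b)]
  refine ⟨S, f, h1, ?_⟩
  rw [h2, Measure.volume_eq_prod, Measure.prod_prod, vol_U4, ← ENNReal.ofReal_mul (by norm_num)]
  norm_num

end Vale.Agent.P057b
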