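import Vale.Agent.P057b.Defs

/-! From a building block in the two-dimensional torus to progression-free sets. -/

open MeasureTheory Set
open scoped ENNReal

namespace Vale.Agent.P057b

/-- The two-dimensional torus. -/
abbrev T2 : Type := UnitAddCircle × UnitAddCircle

/-- A building block for progressions with `l + 2` terms, with a potential bounded by `K`. -/
structure Block (l : ℕ) (K : ℝ) (S : Set T2) (f : T2 → ℝ) : Prop where
  meas : MeasurableSet S
  nonneg : ∀ x ∈ S, 0 ≤ f x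
  le : ∀ x ∈ S, f x ≤ K
  key : ∀ x d : T2, (∀ i ≤ l + 1, x + i • d ∈ S) →
    ‖4 • d.1‖ ^ 2 + ‖4 • d.2‖ ^ 2 ≤ 8 * (f x + f (x + (l + 1) • d) - f (x + d) - f (x + l • d))

theorem card_le_r {k N : ℕ} {A : Finset ℕ} (h1 : A ⊆ Finset.Icc 1 N) (h2 : APFree k A) :
    A.card ≤ r k N := by
  classical
  exact Finset.le_sup (f := Finset.card) (Finset.mem_filter.2 ⟨Finset.mem_powerset.2 h1, h2⟩)

theorem digit {M n e : ℕ} (hM : 2 ≤ M) (hn : 0 < n) (h : 2 * n < M ^ e) :
    ∃ i < e, 1 / (2 * (M : ℝ)) ≤ ‖(((n : ℝ) / M ^ (i + 1) : ℝ) : UnitAddCircle)‖ := by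
  have h1 : M ^ Nat.log M (2 * n) ≤ 2 * n := Nat.pow_log_le_self M (by omega)
  have h2 : 2 * n < M ^ (Nat.log M (2 * n) + 1) := Nat.lt_pow_succ_log_self (by omega) _
  refine ⟨Nat.log M (2 * n), Nat.log_lt_of_lt_pow (by omega) h, ?_⟩
  generalize Nat.log M (2 * n) = i at h1 h2
  have h3 : (M : ℝ) ^ i ≤ 2 * n := by exact_mod_cast h1
  have h4 : 2 * (n : ℝ) < M ^ (i + 1) := by exact_mod_cast h2
  have hM0 : (0 : ℝ) < M := by exact_mod_cast (by omega : 0 < M)
  have h5 : (0 : ℝ) ≤ n / M ^ (i + 1) := by positivity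
  rw [(AddCircle.norm_coe_eq_abs_iff 1 one_ne_zero).2 (by
    rw [abs_of_nonneg h5, abs_one, div_le_div_iff₀ (by positivity) (by positivity)]
    linarith), abs_of_nonneg h5, div_le_div_iff₀ (by positivity) (by positivity), pow_succ]
  nlinarith

/-- The rotation vector. -/
noncomputable def th (m M : ℕ) (j : Fin m) : T2 :=
  (((1 / (M : ℝ) ^ (2 * j.val + 1) : ℝ) : UnitAddCircle),
    ((1 / (M : ℝ) ^ (2 * j.val + 1 + 1) : ℝ) : UnitAddCircle))

theorem th_far {m M N d : ℕ} (hM : 2 ≤ M) (hN : 8 * N ≤ M ^ (2 * m)) (hd : 0 < d) (hdN : d < N) :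
    1 / (4 * (M : ℝ) ^ 2) ≤ ∑ j, (‖4 • (d • th m M j).1‖ ^ 2 + ‖4 • (d • th m M j).2‖ ^ 2) := by
  obtain ⟨i, hi, h⟩ := digit (n := 4 * d) (e := 2 * m) hM (by omega) (by omega)
  have e : ∀ x : ℝ, 4 • d • ((1 / x : ℝ) : UnitAddCircle) =
      ((((4 * d : ℕ) : ℝ) / x : ℝ) : UnitAddCircle) := fun x => by
    rw [smul_smul, ← AddCircle.coe_nsmul, nsmul_eq_mul, mul_one_div]
  have hM0 : (0 : ℝ) < M := by exact_mod_cast (by omega : 0 < M)
  have h2 := pow_le_pow_left₀ (by positivity) h 2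
  refine le_trans ?_ (Finset.single_le_sum (f := fun j : Fin m =>
    ‖4 • (d • th m M j).1‖ ^ 2 + ‖4 • (d • th m M j).2‖ ^ 2) (fun j _ => by positivity)
    (Finset.mem_univ ⟨i / 2, by omega⟩))
  have h3 : 1 / (4 * (M : ℝ) ^ 2) = (1 / (2 * (M : ℝ))) ^ 2 := by field_simp; norm_num
  simp only [th, Prod.smul_fst, Prod.smul_snd, e]
  rw [h3]
  rcases Nat.even_or_odd' i with ⟨a, rfl | rfl⟩
  · rw [show 2 * a / 2 = a by omega]
    exact h2.trans (le_add_of_nonneg_right (sq_nonneg _))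
  · rw [show (2 * a + 1) / 2 = a by omega]
    exact h2.trans (le_add_of_nonneg_left (sq_nonneg _))

open Classical in
theorem count_le {l k m M N : ℕ} {K : ℝ} {S : Set T2} {f : T2 → ℝ} (hB : Block l K S f)
    (hk : l + 2 ≤ k) (hM : 2 ≤ M) (hN : 8 * N ≤ M ^ (2 * m)) (μ : Fin m → T2) :
    ((Finset.Icc 1 N).filter fun n => ∀ j, μ j + n • th m M j ∈ S).card ≤
      r k N * (⌊64 * (M : ℝ) ^ 2 * (m * K)⌋₊ + 1) := by
  have hM0 : (0 : ℝ) < M := by exact_mod_cast (by omega : 0 < M)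
  obtain ⟨F, hF⟩ : ∃ F : ℕ → ℝ, F = fun n => 64 * (M : ℝ) ^ 2 * ∑ j, f (μ j + n • th m M j) :=
    ⟨_, rfl⟩
  rw [← Finset.card_range (⌊64 * (M : ℝ) ^ 2 * (m * K)⌋₊ + 1)]
  refine Finset.card_le_mul_card_image_of_maps_to (f := fun n => ⌊F n⌋₊) (fun n hn => ?_) _
    fun t _ => card_le_r (fun n hn => (Finset.mem_filter.1 (Finset.mem_filter.1 hn).1).1) ?_
  · rw [Finset.mem_range, Nat.lt_succ_iff, hF]
    refine Nat.floor_le_floor (mul_le_mul_of_nonneg_left ?_ (by positivity))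
    have := Finset.sum_le_sum (s := Finset.univ) fun j _ =>
      hB.le _ ((Finset.mem_filter.1 hn).2 j)
    simpa using this
  · intro a d hd h
    simp only [Finset.mem_filter, Finset.mem_Icc] at h
    have h0 := h 0 (by omega)
    have h1 := h 1 (by omega)
    have h2 := h l (by omega)
    have h3 := h (l + 1) (by omega)
    have hF0 : ∀ i < k, 0 ≤ F (a + i * d) := fun i hi => by
      rw [hF]
      exact mul_nonneg (by positivity) (Finset.sum_nonneg fun j _ => hB.nonneg _ ((h i hi).1.2 j))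
    have lo : ∀ i < k, (t : ℝ) ≤ F (a + i * d) := fun i hi => by
      rw [← (h i hi).2]; exact Nat.floor_le (hF0 i hi)
    have up : ∀ i < k, F (a + i * d) < t + 1 := fun i hi => by
      rw [← (h i hi).2]; exact Nat.lt_floor_add_one _
    have e : ∀ (i : ℕ) j, μ j + a • th m M j + i • d • th m M j = μ j + (a + i * d) • th m M j :=
      fun i j => by rw [add_nsmul, mul_nsmul', add_assoc]
    have key := Finset.sum_le_sum (s := Finset.univ) fun j _ =>
      hB.key (μ j + a • th m M j) (d • th m M j) fun i hi => by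
        rw [e]; exact (h i (by omega)).1.2 j
    have far := (th_far hM hN hd (by omega)).trans key
    have e1 : ∀ j, μ j + a • th m M j + d • th m M j = μ j + (a + 1 * d) • th m M j := fun j => by
      rw [← e, one_nsmul]
    simp only [e, e1, ← Finset.mul_sum, Finset.sum_sub_distrib, Finset.sum_add_distrib] at far
    have g0 := up 0 (by omega)
    have g1 := lo 1 (by omega)
    have g2 := lo l (by omega)
    have g3 := up (l + 1) (by omega)
    simp only [hF, zero_mul, add_zero] at g0 g1 g2 g3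
    rw [div_le_iff₀ (by positivity)] at far
    nlinarith

theorem vol_shift (c : T2) (S : Set T2) : volume ((fun x => x + c) ⁻¹' S) = volume S :=
  measure_preimage_add_right ((volume : Measure UnitAddCircle).prod volume) c S

theorem vol_univ : volume (univ : Set T2) = 1 := by
  rw [Measure.volume_eq_prod, ← univ_prod_univ, Measure.prod_prod]
  simp

theorem average {l k m M N : ℕ} {K : ℝ} {S : Set T2} {f : T2 → ℝ} (hB : Block l K S f)
    (hk : l + 2 ≤ k) (hM : 2 ≤ M) (hN : 8 * N ≤ M ^ (2 * m)) :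
    N * volume S ^ m ≤ (r k N * (⌊64 * (M : ℝ) ^ 2 * (m * K)⌋₊ + 1) : ℕ) := by
  classical
  have hP : MeasurableSet (Set.pi univ fun _ : Fin m => S) :=
    MeasurableSet.univ_pi fun _ => hB.meas
  have hm : ∀ n : ℕ, MeasurableSet
      ((fun μ : Fin m → T2 => μ + n • th m M) ⁻¹' Set.pi univ fun _ => S) := fun n =>
    measurable_add_const _ hP
  have h1 : ∀ n : ℕ, ∫⁻ μ, ((fun μ : Fin m → T2 => μ + n • th m M) ⁻¹'
      Set.pi univ fun _ => S).indicator 1 μ = volume S ^ m := fun n => by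
    have e : ((fun μ : Fin m → T2 => μ + n • th m M) ⁻¹' Set.pi univ fun _ => S) =
        Set.pi univ fun j => (fun x => x + n • th m M j) ⁻¹' S := by
      ext μ; simp [Set.mem_pi]
    rw [lintegral_indicator_one (hm n), e, volume_pi_pi]
    simp [vol_shift]
  calc (N : ℝ≥0∞) * volume S ^ m = ∑ n ∈ Finset.Icc 1 N, ∫⁻ μ,
        ((fun μ : Fin m → T2 => μ + n • th m M) ⁻¹' Set.pi univ fun _ => S).indicator 1 μ := by
        simp [h1]
    _ = ∫⁻ μ, ∑ n ∈ Finset.Icc 1 N,
        ((fun μ : Fin m → T2 => μ + n • th m M) ⁻¹' Set.pi univ fun _ => S).indicator 1 μ :=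
        (lintegral_finsetSum _ fun n _ => measurable_one.indicator (hm n)).symm
    _ ≤ ∫⁻ _μ : Fin m → T2, (r k N * (⌊64 * (M : ℝ) ^ 2 * (m * K)⌋₊ + 1) : ℕ) := by
        refine lintegral_mono fun μ => ?_
        refine le_trans (le_of_eq ?_) (Nat.cast_le.2 (count_le hB hk hM hN μ))
        rw [Finset.card_filter]
        push_cast
        refine Finset.sum_congr rfl fun n _ => ?_
        simp [indicator, Set.mem_pi]
    _ = _ := by
        rw [lintegral_const, ← Set.pi_univ, volume_pi_pi]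
        simp [vol_univ]

theorem average_real {l k m M N : ℕ} {K ρ : ℝ} {S : Set T2} {f : T2 → ℝ} (hB : Block l K S f)
    (hK : 0 ≤ K) (hρ : 0 ≤ ρ) (hS : ENNReal.ofReal ρ ≤ volume S)
    (hk : l + 2 ≤ k) (hM : 2 ≤ M) (hN : 8 * N ≤ M ^ (2 * m)) :
    N * ρ ^ m ≤ r k N * (64 * (M : ℝ) ^ 2 * (m * K) + 1) := by
  have h1 := (mul_le_mul_right (pow_le_pow_left' hS m) _).trans (average hB hk hM hN)
  rw [← ENNReal.ofReal_pow hρ, ← ENNReal.ofReal_natCast N, ← ENNReal.ofReal_mul (by positivity),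
    ENNReal.ofReal_le_natCast] at h1
  refine h1.trans ?_
  push_cast
  gcongr
  exact Nat.floor_le (by positivity)

end Vale.Agent.P057b
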