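import Mathlib

/-! Sets of integers without arithmetic progressions. -/

namespace Vale.Agent.P057b

/-- `A` contains no `k`-term arithmetic progression with positive common difference. -/
def APFree (k : ℕ) (A : Finset ℕ) : Prop := ∀ a d : ℕ, 0 < d → ¬∀ i < k, a + i * d ∈ A

open Classical in
/-- The largest size of a subset of `{1, ..., N}` without a `k`-term arithmetic progression. -/
noncomputable def r (k N : ℕ) : ℕ :=
  ((Finset.Icc 1 N).powerset.filter (APFree k)).sup Finset.card

end Vale.Agent.P057b
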