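import Vale.Agent.P057b.Asym
import Vale.Agent.P057b.B3
import Vale.Agent.P057b.B4

/-! The two lower bounds. -/

open MeasureTheory Filter Real

namespace Vale.Agent.P057b

theorem lower3 {k : ℕ} (hk : 3 ≤ k) {c : ℝ} (hc : 2 * √(log (384 / 113)) < c) :
    ∀ᶠ N : ℕ in atTop, N * exp (-c * √(log N)) ≤ r k N :=
  asym (l := 1) (ρ := 113 / 384) (C := 129) (by norm_num) (by norm_num) hk (by norm_num)
    (fun _ hm => block3 hm) (by rwa [one_div_div])

theorem lower4 {k : ℕ} (hk : 4 ≤ k) {c : ℝ} (hc : 2 * √(log (81 / 25)) < c) :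
    ∀ᶠ N : ℕ in atTop, N * exp (-c * √(log N)) ≤ r k N := by
  obtain ⟨S, f, h1, h2⟩ := block4
  refine asym (l := 2) (ρ := 25 / 81) (C := 4) (by norm_num) (by norm_num) hk (by norm_num)
    (fun m hm => ⟨S, f, ⟨h1.meas, h1.nonneg, fun x hx => (h1.le x hx).trans ?_, h1.key⟩, ?_⟩)
    (by rwa [one_div_div])
  · have hm' : (1 : ℝ) ≤ m := by exact_mod_cast hm
    nlinarith
  · rw [h2]
    refine ENNReal.ofReal_le_ofReal ?_
    have : (0 : ℝ) ≤ 1 / (2 * m) := by positivity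
    linarith

theorem const_lt {a b : ℝ} (ha : 1 ≤ a) (h : a < b) : 2 * √(log a) < 2 * √(log b) :=
  mul_lt_mul_of_pos_left (sqrt_lt_sqrt (log_nonneg ha) (log_lt_log (by linarith) h)) two_pos

end Vale.Agent.P057b
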