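import Vale.Agent.P057b.Core

/-! Building blocks described in the unit square. -/

open MeasureTheory Set

namespace Vale.Agent.P057b

/-- The representative in the half open unit interval. -/
noncomputable def rep (x : UnitAddCircle) : ℝ := (AddCircle.equivIoc 1 0 x : ℝ)

theorem coe_rep (x : UnitAddCircle) : ((rep x : ℝ) : UnitAddCircle) = x := AddCircle.coe_equivIoc

theorem mp_rep : MeasurePreserving rep volume (volume.restrict (Ioc 0 1)) := by
  have h : MeasurePreserving rep volume (volume.restrict (Ioc 0 (0 + 1))) :=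
    (measurePreserving_subtype_coe (μa := volume) measurableSet_Ioc).comp
      (AddCircle.measurePreserving_equivIoc (T := 1) (a := 0))
  rwa [zero_add] at h

theorem second (x d : UnitAddCircle) (i : ℕ) : ∃ e : ℤ,
    rep (x + i • d) - 2 * rep (x + (i + 1) • d) + rep (x + (i + 2) • d) = e := by
  have h : ((rep (x + i • d) - 2 * rep (x + (i + 1) • d) + rep (x + (i + 2) • d) : ℝ) :
      UnitAddCircle) = 0 := by
    rw [two_mul]
    simp only [AddCircle.coe_add, AddCircle.coe_sub, coe_rep, add_nsmul, one_nsmul, two_nsmul]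
    abel
  obtain ⟨e, he⟩ := (AddCircle.coe_eq_zero_iff 1).1 h
  exact ⟨e, by rw [← he]; simp⟩

theorem norm_four (x d : UnitAddCircle) (a : ℤ) :
    ‖4 • d‖ ^ 2 ≤ (4 * (rep (x + 1 • d) - rep (x + 0 • d)) - a) ^ 2 := by
  have h : 4 • d = ((4 * (rep (x + 1 • d) - rep (x + 0 • d)) : ℝ) : UnitAddCircle) := by
    rw [show (4 : ℝ) * (rep (x + 1 • d) - rep (x + 0 • d)) =
      4 • (rep (x + 1 • d) - rep (x + 0 • d)) by simp, AddCircle.coe_nsmul, AddCircle.coe_sub,
      coe_rep, coe_rep]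
    simp
  rw [h, UnitAddCircle.norm_eq, ← sq_abs (_ - (a : ℝ))]
  exact pow_le_pow_left₀ (abs_nonneg _) (round_le _ a) 2

theorem norm_half (d : UnitAddCircle) : ‖d‖ ^ 2 ≤ 1 / 4 := by
  have h := AddCircle.norm_le_half_period 1 (x := d) one_ne_zero
  rw [abs_one] at h
  nlinarith [norm_nonneg d]

theorem block_of_real {l : ℕ} {K : ℝ} {S : Set (ℝ × ℝ)} {g : ℝ × ℝ → ℝ} (hm : MeasurableSet S)
    (hs : S ⊆ Ioc 0 1 ×ˢ Ioc 0 1) (h0 : ∀ z ∈ S, 0 ≤ g z) (hK : ∀ z ∈ S, g z ≤ K)
    (key : ∀ p : ℕ → ℝ × ℝ, (∀ i ≤ l + 1, p i ∈ S) →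
      (∀ i, ∃ e : ℤ, (p i).1 - 2 * (p (i + 1)).1 + (p (i + 2)).1 = e) →
      (∀ i, ∃ e : ℤ, (p i).2 - 2 * (p (i + 1)).2 + (p (i + 2)).2 = e) →
      1 / 16 ≤ g (p 0) + g (p (l + 1)) - g (p 1) - g (p l) ∨ ∃ a b : ℤ,
        (4 * ((p 1).1 - (p 0).1) - a) ^ 2 + (4 * ((p 1).2 - (p 0).2) - b) ^ 2 ≤
          8 * (g (p 0) + g (p (l + 1)) - g (p 1) - g (p l))) :
    ∃ S' f, Block l K S' f ∧ volume S' = volume S := by
  have hp := mp_rep.prod mp_rep
  refine ⟨Prod.map rep rep ⁻¹' S, g ∘ Prod.map rep rep,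
    ⟨hp.measurable hm, fun x hx => h0 _ hx, fun x hx => hK _ hx, fun x d h => ?_⟩, ?_⟩
  · have h1 := key (fun i => Prod.map rep rep (x + i • d)) h (fun i => second x.1 d.1 i)
      (fun i => second x.2 d.2 i)
    have e0 : x + 0 • d = x := by simp
    have e1 : x + 1 • d = x + d := by simp
    rcases h1 with h1 | ⟨a, b, h1⟩
    · rw [e0, e1] at h1
      have h2 := norm_half (4 • d.1)
      have h3 := norm_half (4 • d.2)
      simp only [Function.comp_apply]
      linarith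
    · have h2 := norm_four x.1 d.1 a
      have h3 := norm_four x.2 d.2 b
      have h4 := (add_le_add h2 h3).trans h1
      rwa [e0, e1] at h4
  · rw [Measure.volume_eq_prod, hp.measure_preimage hm.nullMeasurableSet, Measure.prod_restrict,
      Measure.restrict_apply hm, inter_eq_left.2 hs, Measure.volume_eq_prod]

end Vale.Agent.P057b
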